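import Vale.Agent.P252.Rigidity.General.Cert4.Jets

/-! One homogenised block of the certificate, generated. -/

namespace Vale.Agent.P252.General.Cert4

open Vale.Agent.P100T.PosCheck

/-- Homogenised block 2 in frame II. -/
def MII2 : Fin 3 → Fin 3 → Ex :=
  ![![.add (m3 (1083273840000000) 0 0 8) (.add (m3 (2547928125000000) 0 2 6) (.add (m3 (1496517187500000) 0 4 4) (.add (m3 (23245200000000) 1 0 7) (.add (m3 (26415000000000) 1 2 5) (.add (m3 (2547928125000000) 2 0 6) (.add (m3 (2993034375000000) 2 2 4) (.add (m3 (26415000000000) 3 0 5) (m3 (1496517187500000) 4 0 4)))))))), .add (m3 (-359710560000000) 0 0 8) (.add (m3 (-770260500000000) 0 2 6) (.add (m3 (-410793750000000) 0 4 4) (.add (m3 (-2006695350000000) 1 0 7) (.add (m3 (-3427349625000000) 1 2 5) (.add (m3 (-1303425000000000) 1 4 3) (.add (m3 (-967305150000000) 2 0 6) (.add (m3 (-1045501875000000) 2 2 4) (.add (m3 (-3427349625000000) 3 0 5) (.add (m3 (-2606850000000000) 3 2 3) (.add (m3 (-634708125000000) 4 0 4) (m3 (-1303425000000000)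 5 0 3))))))))))), .add (m3 (-1037809080000000) 0 0 8) (.add (m3 (-2326342500000000) 0 2 6) (.add (m3 (-1303425000000000) 0 4 4) (.add (m3 (-197044650000000) 1 0 7) (.add (m3 (-223914375000000) 1 2 5) (.add (m3 (-2326342500000000) 2 0 6) (.add (m3 (-2606850000000000) 2 2 4) (.add (m3 (-223914375000000) 3 0 5) (m3 (-1303425000000000) 4 0 4))))))))],
    ![.add (m3 (-359710560000000) 0 0 8) (.add (m3 (-770260500000000) 0 2 6) (.add (m3 (-410793750000000) 0 4 4) (.add (m3 (-2006695350000000) 1 0 7) (.add (m3 (-3427349625000000) 1 2 5) (.add (m3 (-1303425000000000) 1 4 3) (.add (m3 (-967305150000000) 2 0 6) (.add (m3 (-1045501875000000) 2 2 4) (.add (m3 (-3427349625000000) 3 0 5) (.add (m3 (-2606850000000000) 3 2 3) (.add (m3 (-634708125000000) 4 0 4) (m3 (-1303425000000000) 5 0 3))))))))))), .add (m3 (650846592000000) 0 0 8) (.add (m3 (1441118340000000) 0 2 6) (.add (m3 (797181750000000) 0 4 4) (.add (m3 (571254552000000) 1 0 7) (.add (m3 (1372149900000000) 1 2 5) (.add (m3 (821587500000000)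 1 4 3) (.add (m3 (4416699960000000) 2 0 6) (.add (m3 (6122720250000000) 2 2 4) (.add (m3 (1303425000000000) 2 4 2) (.add (m3 (1569194550000000) 3 0 5) (.add (m3 (1867089375000000) 3 2 3) (.add (m3 (5325538500000000) 4 0 4) (.add (m3 (2606850000000000) 4 2 2) (.add (m3 (1045501875000000) 5 0 3) (m3 (1303425000000000) 6 0 2)))))))))))))), .add (m3 (359710560000000) 0 0 8) (.add (m3 (770260500000000) 0 2 6) (.add (m3 (410793750000000) 0 4 4) (.add (m3 (2006695350000000) 1 0 7) (.add (m3 (3427349625000000) 1 2 5) (.add (m3 (1303425000000000) 1 4 3) (.add (m3 (967305150000000) 2 0 6) (.add (m3 (1045501875000000) 2 2 4) (.add (m3 (3427349625000000) 3 0 5) (.add (m3 (2606850000000000) 3 2 3) (.add (m3 (634708125000000) 4 0 4) (m3 (1303425000000000) 5 0 3)))))))))))],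
    ![.add (m3 (-1037809080000000) 0 0 8) (.add (m3 (-2326342500000000) 0 2 6) (.add (m3 (-1303425000000000) 0 4 4) (.add (m3 (-197044650000000) 1 0 7) (.add (m3 (-223914375000000) 1 2 5) (.add (m3 (-2326342500000000) 2 0 6) (.add (m3 (-2606850000000000) 2 2 4) (.add (m3 (-223914375000000) 3 0 5) (m3 (-1303425000000000) 4 0 4)))))))), .add (m3 (359710560000000) 0 0 8) (.add (m3 (770260500000000) 0 2 6) (.add (m3 (410793750000000) 0 4 4) (.add (m3 (2006695350000000) 1 0 7) (.add (m3 (3427349625000000) 1 2 5) (.add (m3 (1303425000000000) 1 4 3) (.add (m3 (967305150000000) 2 0 6) (.add (m3 (1045501875000000) 2 2 4) (.add (m3 (3427349625000000) 3 0 5) (.add (m3 (2606850000000000) 3 2 3) (.add (m3 (634708125000000) 4 0 4) (m3 (1303425000000000) 5 0 3))))))))))), .add (m3 (1037809080000000) 0 0 8) (.add (m3 (2326342500000000) 0 2 6) (.add (m3 (1303425000000000) 0 4 4) (.add (m3 (197044650000000) 1 0 7) (.add (m3 (223914375000000) 1 2 5) (.add (m3 (2326342500000000) 2 0 6) (.add (m3 (2606850000000000)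 2 2 4) (.add (m3 (223914375000000) 3 0 5) (m3 (1303425000000000) 4 0 4))))))))]]

end Vale.Agent.P252.General.Cert4
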